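import Vale.Agent.P040.Sph56.Defs

/-!
# The crossing lemma for geodesic arcs on the sphere

The shortest arc between two non antipodal points `p, q` of the sphere is the radial projection of the
open cone `{s p + t q : s, t > 0}`.  Two arcs meet iff the two cones meet.
-/

namespace Vale.Agent.P040.Sph43

open Vale.Agent.P040.Sph56

/-- linear combination `s p + t q` -/
def cmb (s : ℝ) (p : V3) (t : ℝ) (q : V3) : V3 :=
  (s * p.1 + t * q.1, s * p.2.1 + t * q.2.1, s * p.2.2 + t * q.2.2)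

/-- the open cones spanned by `b, x` and by `b', x'` have a common point -/
def ConeMeet (b x b' x' : V3) : Prop :=
  ∃ s t s' t' : ℝ, 0 < s ∧ 0 < t ∧ 0 < s' ∧ 0 < t' ∧ cmb s b t x = cmb s' b' t' x'

/-- the linear dependency of four vectors of `ℝ³` -/
lemma four_dep (b b' x x' : V3) :
    cmb (det3 x x' b') b (det3 b b' x') x = cmb (det3 x x' b) b' (det3 b b' x) x' := by
  obtain ⟨b1, b2, b3⟩ := b
  obtain ⟨c1, c2, c3⟩ := b'
  obtain ⟨x1, x2, x3⟩ := x
  obtain ⟨y1, y2, y3⟩ := x'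
  simp only [cmb, det3, Prod.mk.injEq]
  refine ⟨by ring, by ring, by ring⟩

lemma cmb_neg (s : ℝ) (p : V3) (t : ℝ) (q : V3) {s' : ℝ} {p' : V3} {t' : ℝ} {q' : V3}
    (h : cmb s p t q = cmb s' p' t' q') : cmb (-s) p (-t) q = cmb (-s') p' (-t') q' := by
  simp only [cmb, Prod.mk.injEq] at h ⊢
  obtain ⟨h1, h2, h3⟩ := h
  refine ⟨by linarith, by linarith, by linarith⟩

/-- move the second terms to the other side -/
lemma cmb_swap {s : ℝ} {p : V3} {t : ℝ} {q : V3} {s' : ℝ} {p' : V3} {t' : ℝ} {q' : V3}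
    (h : cmb s p t q = cmb s' p' t' q') : cmb s p (-t') q' = cmb s' p' (-t) q := by
  simp only [cmb, Prod.mk.injEq] at h ⊢
  obtain ⟨h1, h2, h3⟩ := h
  refine ⟨by linarith, by linarith, by linarith⟩

/-- **The crossing lemma.**  If `x, x'` are strictly on the same side of the great circle `b b'` and
`b, b'` strictly on the same side of the great circle `x x'`, then the arc `b x` meets the arc `b' x'`
or the arc `b x'` meets the arc `b' x`. -/
theorem coneMeet_or {b b' x x' : V3} (h : Good4 b b' x x') :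
    ConeMeet b x b' x' ∨ ConeMeet b x' b' x := by
  obtain ⟨h1, h2⟩ := h
  have hd := four_dep b b' x x'
  rcases pos_and_pos_or_neg_and_neg_of_mul_pos h1 with ⟨a1, a2⟩ | ⟨a1, a2⟩ <;>
  rcases pos_and_pos_or_neg_and_neg_of_mul_pos h2 with ⟨a3, a4⟩ | ⟨a3, a4⟩
  · exact Or.inl ⟨_, _, _, _, a4, a2, a3, a1, hd⟩
  · refine Or.inr ⟨_, _, _, _, ?_, ?_, ?_, ?_, cmb_swap (cmb_neg _ _ _ _ hd)⟩ <;> linarith
  · refine Or.inr ⟨_, _, _, _, ?_, ?_, ?_, ?_, cmb_swap hd⟩ <;> linarith
  · refine Or.inl ⟨_, _, _, _, ?_, ?_, ?_, ?_, cmb_neg _ _ _ _ hd⟩ <;> linarith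

lemma dot_cmb_self_pos {s t : ℝ} {p q : V3} (hne : cmb s p t q ≠ (0, 0, 0)) :
    0 < dot (cmb s p t q) (cmb s p t q) := by
  set z := cmb s p t q with hz
  obtain ⟨z1, z2, z3⟩ := z
  simp only [dot]
  by_contra hcon
  apply hne
  have h1 : z1 = 0 := by nlinarith [sq_nonneg z1, sq_nonneg z2, sq_nonneg z3]
  have h2 : z2 = 0 := by nlinarith [sq_nonneg z1, sq_nonneg z2, sq_nonneg z3]
  have h3 : z3 = 0 := by nlinarith [sq_nonneg z1, sq_nonneg z2, sq_nonneg z3]
  rw [h1, h2, h3]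

/-- a positive combination of `b, x` does not vanish if `b, x` are part of an independent triple -/
lemma cmb_ne_zero {s t : ℝ} {b x c : V3} (ht : t ≠ 0) (hdet : det3 b c x ≠ 0) :
    cmb s b t x ≠ (0, 0, 0) := by
  intro h
  apply hdet
  obtain ⟨b1, b2, b3⟩ := b
  obtain ⟨c1, c2, c3⟩ := c
  obtain ⟨x1, x2, x3⟩ := x
  simp only [cmb, Prod.mk.injEq] at h
  obtain ⟨h1, h2, h3⟩ := h
  have e1 : x1 = -(s / t) * b1 := by field_simp; linarith
  have e2 : x2 = -(s / t) * b2 := by field_simp; linarith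
  have e3 : x3 = -(s / t) * b3 := by field_simp; linarith
  simp only [det3]
  rw [e1, e2, e3]
  ring

/-- Normalised form: a common point `z` with `dot z z = 1`, written as a positive combination of the
ends of both arcs. -/
theorem ConeMeet.unit {b x b' x' : V3} (h : ConeMeet b x b' x') (hdet : det3 b b' x ≠ 0) :
    ∃ z : V3, dot z z = 1 ∧ (∃ s t : ℝ, 0 < s ∧ 0 < t ∧ z = cmb s b t x) ∧
      (∃ s t : ℝ, 0 < s ∧ 0 < t ∧ z = cmb s b' t x') := by
  obtain ⟨s, t, s', t', hs, ht, hs', ht', he⟩ := h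
  have hpos := dot_cmb_self_pos (cmb_ne_zero (s := s) ht.ne' hdet)
  set N := dot (cmb s b t x) (cmb s b t x) with hN
  have hsq : 0 < Real.sqrt N := Real.sqrt_pos.mpr hpos
  have hmul : Real.sqrt N * Real.sqrt N = N := Real.mul_self_sqrt hpos.le
  refine ⟨cmb (s / Real.sqrt N) b (t / Real.sqrt N) x, ?_, ⟨_, _, by positivity, by positivity, rfl⟩,
    ⟨s' / Real.sqrt N, t' / Real.sqrt N, by positivity, by positivity, ?_⟩⟩
  · have : dot (cmb (s / Real.sqrt N) b (t / Real.sqrt N) x)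
        (cmb (s / Real.sqrt N) b (t / Real.sqrt N) x) = N / (Real.sqrt N * Real.sqrt N) := by
      rw [hN]
      simp only [dot, cmb]
      field_simp
    rw [this, hmul]
    exact div_self hpos.ne'
  · simp only [cmb, Prod.mk.injEq] at he ⊢
    obtain ⟨h1, h2, h3⟩ := he
    have hne := hsq.ne'
    refine ⟨?_, ?_, ?_⟩
    · field_simp; linarith
    · field_simp; linarith
    · field_simp; linarith

end Vale.Agent.P040.Sph43
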