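import Mathlib

/-!
# Parity of the number of halving lines of a pencil

(A) abstract form: a walk with steps `+1`, `-1` from `#plus` to `#minus` passes between the levels `L` and
`L + 1` an even or odd number of times according to its ends.
(B) plane vectors `(X b, Y b)`, pairwise non parallel, `2k+1` of them: the number of `b` such that exactly `k`
of the others lie on the positive side of the line spanned by `b` is odd.
-/

namespace Vale.Agent.P040.Sph43

open Finset

variable {ι : Type*} [DecidableEq ι]

/-- level of the step `b` of the walk -/
noncomputable def lev (B : Finset ι) (κ : ι → ℝ) (ε : ι → Bool) (b : ι) : ℕ :=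
  (B.filter fun r => κ b < κ r ∧ ε r = true).card + (B.filter fun r => κ r < κ b ∧ ε r = false).card

/-- number of elements with sign `+` -/
def npl (B : Finset ι) (ε : ι → Bool) : ℕ := (B.filter fun r => ε r = true).card
/-- number of elements with sign `-` -/
def nmi (B : Finset ι) (ε : ι → Bool) : ℕ := (B.filter fun r => ε r = false).card

lemma lev_insert_old {s : Finset ι} {κ : ι → ℝ} {ε : ι → Bool} {a b : ι} (ha : a ∉ s)
    (hb : κ b < κ a) :
    lev (insert a s) κ ε b = lev s κ ε b + (if ε a = true then 1 else 0) := by
  unfold lev
  rw [filter_insert, filter_insert]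
  have h2 : ¬ (κ a < κ b ∧ ε a = false) := fun h => absurd h.1 (not_lt.mpr hb.le)
  rw [if_neg h2]
  by_cases he : ε a = true
  · rw [if_pos ⟨hb, he⟩, if_pos he, card_insert_of_notMem (fun h => ha (mem_filter.mp h).1)]
    omega
  · rw [if_neg (fun h => he h.2), if_neg he]
    omega

lemma lev_insert_new {s : Finset ι} {κ : ι → ℝ} {ε : ι → Bool} {a : ι}
    (hmax : ∀ x ∈ s, κ x < κ a) : lev (insert a s) κ ε a = nmi s ε := by
  unfold lev nmi
  rw [filter_insert, filter_insert, if_neg (fun h => lt_irrefl _ h.1),
    if_neg (fun h => lt_irrefl _ h.1)]
  have h1 : (s.filter fun r => κ a < κ r ∧ ε r = true) = ∅ := by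
    apply filter_eq_empty_iff.mpr
    intro x hx h
    exact absurd h.1 (not_lt.mpr (hmax x hx).le)
  have h2 : (s.filter fun r => κ r < κ a ∧ ε r = false) = s.filter fun r => ε r = false := by
    apply filter_congr
    intro x hx
    simp [hmax x hx]
  rw [h1, h2]
  simp

/-- (A), general threshold -/
theorem even_walk (B : Finset ι) (κ : ι → ℝ) (ε : ι → Bool) :
    Set.InjOn κ (B : Set ι) → ∀ L : ℕ,
      Even ((B.filter fun b => lev B κ ε b = L).card + (if L < npl B ε then 1 else 0)
        + (if L < nmi B ε then 1 else 0)) := by
  refine Finset.induction_on_max_value κ B ?_ ?_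
  · intro _ L
    simp [npl, nmi]
  · intro a s ha hmax ih hinj L
    have hinj' : Set.InjOn κ (s : Set ι) := hinj.mono (by simp)
    have hlt : ∀ x ∈ s, κ x < κ a := by
      intro x hx
      refine lt_of_le_of_ne (hmax x hx) fun h => ?_
      have := hinj (by simp [hx]) (by simp) h
      exact ha (this ▸ hx)
    have hcount : ((insert a s).filter fun b => lev (insert a s) κ ε b = L).card =
        (if nmi s ε = L then 1 else 0) +
          (s.filter fun b => lev s κ ε b + (if ε a = true then 1 else 0) = L).card := by
      rw [filter_insert, lev_insert_new hlt]
      have hc : (s.filter fun b => lev (insert a s) κ ε b = L) =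
          s.filter fun b => lev s κ ε b + (if ε a = true then 1 else 0) = L := by
        apply filter_congr
        intro b hb
        rw [lev_insert_old ha (hlt b hb)]
      rw [hc]
      by_cases h : nmi s ε = L
      · rw [if_pos h, if_pos h, card_insert_of_notMem (fun h' => ha (mem_filter.mp h').1)]
        omega
      · rw [if_neg h, if_neg h]
        omega
    rw [hcount]
    by_cases he : ε a = true
    · have hp : npl (insert a s) ε = npl s ε + 1 := by
        unfold npl
        rw [filter_insert, if_pos he, card_insert_of_notMem (fun h' => ha (mem_filter.mp h').1)]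
      have hm : nmi (insert a s) ε = nmi s ε := by
        unfold nmi
        rw [filter_insert, if_neg (by simp [he])]
      rw [hp, hm]
      have hc0 : (s.filter fun b => lev s κ ε b + (if ε a = true then 1 else 0) = L) =
          s.filter fun b => lev s κ ε b + 1 = L := by
        apply filter_congr
        intro b _
        rw [if_pos he]
      rw [hc0]
      rcases Nat.eq_zero_or_pos L with h0 | h0
      · subst h0
        have : (s.filter fun b => lev s κ ε b + 1 = 0) = ∅ := by
          apply filter_eq_empty_iff.mpr
          intro x _
          omega
        rw [this]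
        simp only [card_empty]
        by_cases h : nmi s ε = 0
        · simp [h]
        · have h' : 0 < nmi s ε := Nat.pos_of_ne_zero h
          simp [h, h']
      · obtain ⟨L', rfl⟩ : ∃ L', L = L' + 1 := ⟨L - 1, by omega⟩
        have hc : (s.filter fun b => lev s κ ε b + 1 = L' + 1) = s.filter fun b => lev s κ ε b = L' := by
          apply filter_congr
          intro b _
          omega
        rw [hc]
        have := ih hinj' L'
        revert this
        generalize (s.filter fun b => lev s κ ε b = L').card = c
        intro this
        split_ifs at this ⊢ <;> first | omega | (rw [Nat.even_iff] at this ⊢; omega)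
    · have he' : ε a = false := by simpa using he
      have hp : npl (insert a s) ε = npl s ε := by
        unfold npl
        rw [filter_insert, if_neg he]
      have hm : nmi (insert a s) ε = nmi s ε + 1 := by
        unfold nmi
        rw [filter_insert, if_pos he', card_insert_of_notMem (fun h' => ha (mem_filter.mp h').1)]
      rw [hp, hm]
      have hc0 : (s.filter fun b => lev s κ ε b + (if ε a = true then 1 else 0) = L) =
          s.filter fun b => lev s κ ε b = L := by
        apply filter_congr
        intro b _
        rw [if_neg he, add_zero]
      rw [hc0]
      have := ih hinj' L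
      revert this
      generalize (s.filter fun b => lev s κ ε b = L).card = c
      intro this
      split_ifs at this ⊢ <;> first | omega | (rw [Nat.even_iff] at this ⊢; omega)

lemma npl_add_nmi (B : Finset ι) (ε : ι → Bool) : npl B ε + nmi B ε = B.card := by
  unfold npl nmi
  have : (B.filter fun r => ε r = false) = B.filter fun r => ¬ ε r = true := by
    apply filter_congr
    intro x _
    simp
  rw [this, card_filter_add_card_filter_not]

/-- (A) the number of steps between the levels `k` and `k + 1` is odd -/
theorem odd_walk (B : Finset ι) (κ : ι → ℝ) (ε : ι → Bool) (hinj : Set.InjOn κ (B : Set ι)) (k : ℕ)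
    (hcard : B.card = 2 * k + 1) : Odd (B.filter fun b => lev B κ ε b = k).card := by
  have h := even_walk B κ ε hinj k
  have h2 := npl_add_nmi B ε
  revert h
  generalize (B.filter fun b => lev B κ ε b = k).card = c
  intro h
  rw [Nat.odd_iff]
  split_ifs at h <;> first | omega | (rw [Nat.even_iff] at h; omega)

lemma lev_eq (B : Finset ι) (κ : ι → ℝ) (ε : ι → Bool) (b : ι) :
    lev B κ ε b =
      (B.filter fun r => (κ b < κ r ∧ ε r = true) ∨ (κ r < κ b ∧ ε r = false)).card := by
  unfold lev
  rw [filter_or, card_union_of_disjoint]
  rw [disjoint_left]
  intro x h1 h2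
  have a1 := (mem_filter.mp h1).2
  have a2 := (mem_filter.mp h2).2
  exact absurd a1.1 (not_lt.mpr a2.1.le)

/-- (B) plane vectors `(X b, Y b)`: the number of halving lines through the origin and one of the vectors
is odd. -/
theorem odd_halving (B : Finset ι) (X Y : ι → ℝ) (hY : ∀ b ∈ B, Y b ≠ 0)
    (hT : ∀ a ∈ B, ∀ b ∈ B, a ≠ b → X a * Y b - X b * Y a ≠ 0) (k : ℕ)
    (hcard : B.card = 2 * k + 1) :
    Odd (B.filter fun b => (B.filter fun r => 0 < X b * Y r - X r * Y b).card = k).card := by
  set κ : ι → ℝ := fun b => - X b / Y b with hκ
  set ε : ι → Bool := fun b => decide (0 < Y b) with hε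
  have hinj : Set.InjOn κ (B : Set ι) := by
    intro a ha b hb hab
    by_contra hne
    apply hT a ha b hb hne
    have h1 := hY a ha
    have h2 := hY b hb
    simp only [hκ] at hab
    rw [div_eq_div_iff h1 h2] at hab
    linarith
  have hfac : ∀ b ∈ B, ∀ r ∈ B, X b * Y r - X r * Y b = Y b * Y r * (κ r - κ b) := by
    intro b hb r hr
    have h1 := hY b hb
    have h2 := hY r hr
    simp only [hκ]
    field_simp
    ring
  have hkey : ∀ b ∈ B, ((B.filter fun r => 0 < X b * Y r - X r * Y b).card = k ↔ lev B κ ε b = k) := by
    intro b hb
    rw [lev_eq]
    rcases lt_or_gt_of_ne (hY b hb) with hneg | hpos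
    · -- `Y b < 0`: the two sets partition `B` minus `b`
      have hpart : (B.filter fun r => ¬ ((κ b < κ r ∧ ε r = true) ∨ (κ r < κ b ∧ ε r = false))) =
          insert b (B.filter fun r => 0 < X b * Y r - X r * Y b) := by
        ext r
        simp only [mem_filter, mem_insert]
        constructor
        · rintro ⟨hr, hn⟩
          by_cases hrb : r = b
          · exact Or.inl hrb
          · right
            refine ⟨hr, ?_⟩
            rw [hfac b hb r hr]
            have hne : κ r ≠ κ b := fun h => hrb (hinj hr hb h)
            push Not at hn
            rcases lt_or_gt_of_ne (hY r hr) with h2 | h2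
            · have he : ε r = false := by simp [hε, h2.le]
              have h3 : κ b < κ r := by
                rcases lt_or_gt_of_ne hne with h | h
                · exact absurd he (hn.2 h)
                · exact h
              have : 0 < Y b * Y r := mul_pos_of_neg_of_neg hneg h2
              exact mul_pos this (by linarith)
            · have he : ε r = true := by simp [hε, h2]
              have h3 : κ r < κ b := by
                rcases lt_or_gt_of_ne hne with h | h
                · exact h
                · exact absurd he (hn.1 h)
              have : Y b * Y r < 0 := mul_neg_of_neg_of_pos hneg h2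
              exact mul_pos_of_neg_of_neg this (by linarith)
        · rintro (rfl | ⟨hr, h0⟩)
          · refine ⟨hb, ?_⟩
            rintro (h | h) <;> exact lt_irrefl _ h.1
          · refine ⟨hr, ?_⟩
            rw [hfac b hb r hr] at h0
            rintro (⟨h1, h2⟩ | ⟨h1, h2⟩)
            · have h3 : 0 < Y r := by simpa [hε] using h2
              have : Y b * Y r < 0 := mul_neg_of_neg_of_pos hneg h3
              nlinarith
            · have h3 : ¬ 0 < Y r := by simpa [hε] using h2
              have h4 : Y r < 0 := lt_of_le_of_ne (not_lt.mp h3) (hY r hr)
              have : 0 < Y b * Y r := mul_pos_of_neg_of_neg hneg h4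
              nlinarith
      have hsum := card_filter_add_card_filter_not (s := B)
        (fun r => (κ b < κ r ∧ ε r = true) ∨ (κ r < κ b ∧ ε r = false))
      rw [hpart, card_insert_of_notMem (by simp), hcard] at hsum
      omega
    · -- `0 < Y b`: the two sets coincide
      have : (B.filter fun r => 0 < X b * Y r - X r * Y b) =
          B.filter fun r => (κ b < κ r ∧ ε r = true) ∨ (κ r < κ b ∧ ε r = false) := by
        apply filter_congr
        intro r hr
        rw [hfac b hb r hr]
        rcases lt_or_gt_of_ne (hY r hr) with h2 | h2
        · have he : ε r = false := by simp [hε, h2.le]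
          have hm : Y b * Y r < 0 := mul_neg_of_pos_of_neg hpos h2
          simp only [he, and_true, Bool.false_eq_true, and_false, false_or]
          constructor
          · intro h; nlinarith
          · intro h; exact mul_pos_of_neg_of_neg hm (by linarith)
        · have he : ε r = true := by simp [hε, h2]
          have hm : 0 < Y b * Y r := mul_pos hpos h2
          simp only [he, and_true, Bool.true_eq_false, and_false, or_false]
          constructor
          · intro h; nlinarith
          · intro h; exact mul_pos hm (by linarith)
      rw [this]
  have hfil : (B.filter fun b => (B.filter fun r => 0 < X b * Y r - X r * Y b).card = k) =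
      B.filter fun b => lev B κ ε b = k := filter_congr hkey
  rw [hfil]
  exact odd_walk B κ ε hinj k hcard

end Vale.Agent.P040.Sph43
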